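import Mathlib.RingTheory.MvPolynomial.Homogeneous
import Mathlib.RingTheory.MvPolynomial.Ideal
import Mathlib.RingTheory.Regular.RegularSequence
import Mathlib.RingTheory.Localization.AtPrime.Basic
import Mathlib.RingTheory.KrullDimension.Basic

/-! Notions for the graded form of the negative answer. -/

set_option autoImplicit false

namespace Vale.Agent.N190

universe v

/-- `P` is a homogeneous prime ideal of the polynomial ring (standard grading). -/
def HomPrime {K : Type} [Field K] {n : ℕ} (P : Ideal (MvPolynomial (Fin n) K)) : Prop :=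
  P.IsPrime ∧ ∀ f ∈ P, ∀ k : ℕ, MvPolynomial.homogeneousComponent k f ∈ P

/-- For every finitely generated `S`-module `M`, every `M`-regular sequence in the ideal `I` has
length less than `d`. -/
def DepthLt (S : Type) [CommRing S] (I : Ideal S) (d : ℕ) : Prop :=
  ∀ (M : Type v) [AddCommGroup M] [Module S M] [Module.Finite S M] (rs : List S),
    (∀ r ∈ rs, r ∈ I) → RingTheory.Sequence.IsRegular M rs → rs.length < d

/-- `I` is a prime ideal of `S`, the rings `S` and `S_I` have dimension `d`, and the finitely
generated modules over `S` (at `I`) and over the local ring `S_I` have depth less than `d`. -/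
def NoCMAt (S : Type) [CommRing S] (I : Ideal S) (d : ℕ) : Prop :=
  ringKrullDim S = d ∧ DepthLt.{v} S I d ∧ ∃ _ : I.IsPrime,
    ringKrullDim (Localization.AtPrime I) = d ∧
    DepthLt.{v} (Localization.AtPrime I) (IsLocalRing.maximalIdeal (Localization.AtPrime I)) d

/-- `P` is a homogeneous prime ideal of `K[y₁, …, yₙ]`, and `NoCMAt` holds for the standard graded
domain `K[y] / P` and its irrelevant ideal `(y₁, …, yₙ)`. -/
def GradedNoCM {K : Type} [Field K] {n : ℕ} (P : Ideal (MvPolynomial (Fin n) K)) (d : ℕ) : Prop :=
  HomPrime P ∧ NoCMAt.{v} (MvPolynomial (Fin n) K ⧸ P)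
    (Ideal.span (Set.range fun j => Ideal.Quotient.mk P (MvPolynomial.X j))) d

end Vale.Agent.N190
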