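import Vale.Agent.P190.H128.E20
import Vale.Agent.N190.Defs
import Mathlib.RingTheory.KrullDimension.Regular
import Mathlib.RingTheory.KrullDimension.NonZeroDivisors
import Mathlib.RingTheory.Support

/-! Modules of depth at least two extend over rings whose conductor contains the regular
sequence; regular sequences at a closed point of a ring with the equations. -/

set_option autoImplicit false

namespace Vale.Agent.N190

open Vale.Agent.P190 Vale.Agent.P190.D IsLocalRing RingTheory.Sequence Vale.Agent.P190.H455
open Vale.Agent.P190.H128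
open scoped TensorProduct Pointwise

universe v

/-- If `a, b` is a weakly regular sequence on the `A`-module `M` and `a`, `b` lie in the conductor
of `A ⊆ B`, then `M` is a `B`-module. -/
theorem exists_module (A B : Type) [CommRing A] [CommRing B] [Algebra A B]
    (hinj : Function.Injective (algebraMap A B)) (M : Type v) [AddCommGroup M] [Module A M]
    (a b : A) (ha : ∀ β : B, ∃ a' : A, algebraMap A B a' = β * algebraMap A B a)
    (hb : ∀ β : B, ∃ b' : A, algebraMap A B b' = β * algebraMap A B b)
    (h1 : IsSMulRegular M a) (h2 : IsSMulRegular (QuotSMulTop a M) b) :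
    ∃ _ : Module B M, IsScalarTower A B M := by
  choose α hα using ha
  choose γ hγ using hb
  have hdiv : ∀ m : M, (∃ u : M, b • m = a • u) → ∃ w : M, a • w = m := by
    rintro m ⟨u, hu⟩
    have h3 : (Submodule.Quotient.mk m : QuotSMulTop a M) = 0 := by
      apply h2
      change b • (Submodule.Quotient.mk m : QuotSMulTop a M) = b • (0 : QuotSMulTop a M)
      rw [smul_zero, ← Submodule.Quotient.mk_smul, Submodule.Quotient.mk_eq_zero, hu]
      exact Submodule.smul_mem_pointwise_smul u a ⊤ Submodule.mem_top
    rw [Submodule.Quotient.mk_eq_zero] at h3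
    obtain ⟨w, -, hw⟩ := (Submodule.mem_smul_pointwise_iff_exists m a ⊤).1 h3
    exact ⟨w, hw⟩
  have hex : ∀ (β : B) (m : M), ∃ w : M, a • w = α β • m := by
    intro β m
    refine hdiv _ ⟨γ β • m, ?_⟩
    rw [smul_smul, smul_smul]
    congr 1
    apply hinj
    rw [map_mul, map_mul, hα, hγ]
    ring
  choose σ hσ using hex
  have hα1 : α 1 = a := hinj (by rw [hα, one_mul])
  have hα0 : α 0 = 0 := hinj (by rw [hα, zero_mul, map_zero])
  have hαadd : ∀ β β', α (β + β') = α β + α β' := fun β β' =>
    hinj (by rw [map_add, hα, hα, hα, add_mul])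
  have hαmul : ∀ β β', a * α (β * β') = α β * α β' := fun β β' =>
    hinj (by rw [map_mul, map_mul, hα, hα, hα]; ring)
  have hαs : ∀ (x : A) β, α (x • β) = x * α β := fun x β =>
    hinj (by rw [map_mul, hα, hα, Algebra.smul_def, mul_assoc])
  have hc : ∀ u w : M, a • u = a • w → u = w := fun u w h => h1 h
  let inst : Module B M :=
    { smul := σ
      one_smul := fun m => hc _ _ (by
        change a • σ 1 m = _
        rw [hσ, hα1])
      mul_smul := fun β β' m => hc _ _ (hc _ _ (by
        change a • a • σ (β * β') m = a • a • σ β (σ β' m)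
        rw [hσ, hσ, smul_smul, hαmul, smul_comm a (α β), hσ, smul_smul]))
      smul_zero := fun β => hc _ _ (by
        change a • σ β 0 = _
        rw [hσ, smul_zero, smul_zero])
      smul_add := fun β m m' => hc _ _ (by
        change a • σ β (m + m') = a • (σ β m + σ β m')
        rw [hσ, smul_add, smul_add, hσ, hσ])
      add_smul := fun β β' m => hc _ _ (by
        change a • σ (β + β') m = a • (σ β m + σ β' m)
        rw [hσ, smul_add, hσ, hσ, hαadd, add_smul])
      zero_smul := fun m => hc _ _ (by
        change a • σ 0 m = _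
        rw [hσ, hα0, zero_smul, smul_zero]) }
  refine ⟨inst, ⟨fun x β m => hc _ _ ?_⟩⟩
  change a • σ (x • β) m = a • x • σ β m
  rw [hσ, hαs, smul_comm a x, hσ, mul_smul]

theorem isRegular_map (A B : Type) [CommRing A] [CommRing B] [Algebra A B] (M : Type v)
    [AddCommGroup M] [Module A M] [Module B M] [IsScalarTower A B M] (rs : List A) :
    IsRegular M (rs.map (algebraMap A B)) ↔ IsRegular M rs :=
  (AddEquiv.refl M).isRegular_congr <| List.forall₂_map_left_iff.mpr <|
    List.forall₂_same.mpr fun r _ => algebraMap_smul B r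

/-- Descent of a bound on regular sequences along a subring whose conductor contains `I`. -/
theorem descend (A B : Type) [CommRing A] [CommRing B] [Algebra A B]
    (hinj : Function.Injective (algebraMap A B)) (I : Ideal A) (J : Ideal B)
    (hIJ : ∀ a ∈ I, algebraMap A B a ∈ J)
    (hI : ∀ a ∈ I, ∀ β : B, ∃ a' : A, algebraMap A B a' = β * algebraMap A B a)
    (d : ℕ) (hd : 2 ≤ d)
    (hB : ∀ (M : Type v) [AddCommGroup M] [Module B M] [Module.Finite B M] (rs : List B),
      (∀ r ∈ rs, r ∈ J) → IsRegular M rs → rs.length < d)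
    (M : Type v) [AddCommGroup M] [Module A M] [Module.Finite A M] (rs : List A)
    (hrs : ∀ r ∈ rs, r ∈ I) (hreg : IsRegular M rs) : rs.length < d := by
  match rs, hrs, hreg with
  | [], _, _ => simp only [List.length_nil]; omega
  | [_], _, _ => simp only [List.length_singleton]; omega
  | a :: b :: rs, hrs, hreg =>
    have h1 := hreg
    rw [isRegular_cons_iff, isRegular_cons_iff] at h1
    obtain ⟨inst, hst⟩ := exists_module A B hinj M a b (hI a (hrs a (by simp)))
      (hI b (hrs b (by simp))) h1.1 h1.2.1
    have hfin : Module.Finite B M := Module.Finite.of_restrictScalars_finite A B M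
    have h2 := hB M ((a :: b :: rs).map (algebraMap A B)) (by
      intro r hr
      obtain ⟨r0, hr0, rfl⟩ := List.mem_map.1 hr
      exact hIJ _ (hrs r0 hr0)) ((isRegular_map A B M _).2 hreg)
    rwa [List.length_map] at h2

theorem length_le_supportDim {S : Type} [CommRing S] [IsNoetherianRing S] (rs : List S) :
    ∀ (M : Type v) [AddCommGroup M] [Module S M] [Module.Finite S M], IsRegular M rs →
      ((rs.length : ℕ) : WithBot ℕ∞) ≤ Module.supportDim S M := by
  induction rs with
  | nil =>
    intro M _ _ _ h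
    have := h.nontrivial
    have h1 := Module.supportDim_ne_bot_of_nontrivial S M
    rw [List.length_nil, Nat.cast_zero]
    obtain ⟨e, he⟩ := WithBot.ne_bot_iff_exists.1 h1
    rw [← he]
    exact_mod_cast (zero_le : (0 : ℕ∞) ≤ e)
  | cons x rs ih =>
    intro M _ _ _ h
    rw [isRegular_cons_iff] at h
    have h1 := ih (QuotSMulTop x M) h.2
    have h2 := Module.supportDim_quotSMulTop_succ_le_of_notMem_minimalPrimes (M := M) (x := x)
      (fun _ => h.1.notMem_of_mem_minimalPrimes)
    refine le_trans ?_ h2
    rw [List.length_cons, Nat.cast_succ]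
    gcongr

/-- A module over a domain that is killed by a nonzero element has short regular sequences. -/
theorem length_lt_of_torsion {S : Type} [CommRing S] [IsDomain S] [IsNoetherianRing S] (d : ℕ)
    (hd : ringKrullDim S ≤ d) (M : Type v) [AddCommGroup M] [Module S M] [Module.Finite S M]
    (a : S) (ha : a ≠ 0) (haM : ∀ m : M, a • m = 0) (rs : List S) (hreg : IsRegular M rs) :
    rs.length < d := by
  have h1 := length_le_supportDim rs M hreg
  rw [Module.supportDim_eq_ringKrullDim_quotient_annihilator] at h1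
  have h2 : Ideal.span {a} ≤ Module.annihilator S M := by
    rw [Ideal.span_singleton_le_iff_mem, Module.mem_annihilator]
    exact haM
  have h3 : ringKrullDim (S ⧸ Module.annihilator S M) ≤ ringKrullDim (S ⧸ Ideal.span {a}) :=
    ringKrullDim_le_of_surjective (Ideal.Quotient.factor h2) (Ideal.Quotient.factor_surjective h2)
  have h4 := ringKrullDim_quotient_succ_le_of_nonZeroDivisor (R := S) (r := a)
    (mem_nonZeroDivisors_of_ne_zero ha)
  have h5 : ((rs.length : ℕ) : WithBot ℕ∞) + 1 ≤ (d : ℕ) :=
    le_trans (by gcongr; exact h1.trans h3) (h4.trans hd)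
  have h6 : rs.length + 1 ≤ d := by exact_mod_cast h5
  omega

/-- local rings over `ℚ` with the equations -/
theorem length_lt_local (S : Type) [CommRing S] [IsLocalRing S] [IsNoetherianRing S] [Algebra ℚ S]
    (n : ℕ) (x : Fin 3 → S) (z : Fin n → S) (N : ℕ) (hx : ∀ i, x i ∈ maximalIdeal S)
    (hz : ∀ i, z i ∈ maximalIdeal S)
    (hN : maximalIdeal S ^ N ≤ Ideal.span (Set.range x) ⊔ Ideal.span (Set.range z))
    (c : r1S → Fin 3 → S) (s : Fin 17 → S) (G : (r1S → Bool) → S) (hrel : Rel x c s G)
    (M : Type v) [AddCommGroup M] [Module S M] [Module.Finite S M] (rs : List S)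
    (hrs : ∀ r ∈ rs, r ∈ maximalIdeal S) (hreg : IsRegular M rs) : rs.length < 3 + n := by
  rcases le_or_gt ((3 + n : ℕ) : WithBot ℕ∞) (ringKrullDim S) with hd | hd
  · have h1 := univ_params.{v} S n x z N hx hz hN hd c s G hrel M rs hrs hreg
    have h2 : ringKrullDim S ≤ (3 + n : ℕ) := by
      refine dim_le_card S (3 + n) (Fin.append x z) N (fun i => ?_) (hN.trans (sup_le ?_ ?_))
      · refine Fin.addCases (fun i => ?_) (fun i => ?_) i
        · rw [Fin.append_left]; exact hx i
        · rw [Fin.append_right]; exact hz i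
      · rw [Ideal.span_le]
        rintro _ ⟨i, rfl⟩
        exact Ideal.subset_span ⟨Fin.castAdd n i, Fin.append_left _ _ _⟩
      · rw [Ideal.span_le]
        rintro _ ⟨i, rfl⟩
        exact Ideal.subset_span ⟨Fin.natAdd 3 i, Fin.append_right _ _ _⟩
    exact_mod_cast h1.trans_le h2
  · have h1 := (length_le_supportDim rs M hreg).trans (Module.supportDim_le_ringKrullDim S M)
    exact_mod_cast h1.trans_lt hd

/-- from the local ring to the ring -/
theorem depthLt_of_local (S : Type) [CommRing S] [IsDomain S] [IsNoetherianRing S]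
    (q : Ideal S) [hq : q.IsPrime] (d : ℕ) (hd : ringKrullDim S ≤ d)
    (h : DepthLt.{v} (Localization.AtPrime q) (maximalIdeal (Localization.AtPrime q)) d) :
    DepthLt.{v} S q d := by
  intro M _ _ _ rs hrs hreg
  let T : Type := Localization.AtPrime q
  let MT : Type v := LocalizedModule q.primeCompl M
  rcases subsingleton_or_nontrivial MT with hs | hs
  · have h1 : (⟨q, hq⟩ : PrimeSpectrum S) ∉ Module.support S M :=
      Module.notMem_support_iff.2 hs
    rw [Module.mem_support_iff_of_finite] at h1
    obtain ⟨a, ha, ha2⟩ := Set.not_subset.1 h1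
    refine length_lt_of_torsion d hd M a ?_ (Module.mem_annihilator.1 ha) rs hreg
    rintro rfl
    exact ha2 (zero_mem q)
  · have hmax : q.map (algebraMap S T) = maximalIdeal T :=
      IsLocalization.AtPrime.map_eq_maximalIdeal q T
    have hreg2 : IsRegular MT (rs.map (algebraMap S T)) :=
      hreg.1.isRegular_of_isLocalizedModule_of_mem T q (LocalizedModule.mkLinearMap q.primeCompl M)
        hrs
    have h1 := h MT (rs.map (algebraMap S T)) (by
        intro r hr
        obtain ⟨r0, hr0, rfl⟩ := List.mem_map.1 hr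
        rw [← hmax]
        exact Ideal.mem_map_of_mem _ (hrs r0 hr0)) hreg2
    rwa [List.length_map] at h1

/-- rings over `ℚ` with the equations, at a point -/
theorem depthLt_loc (S : Type) [CommRing S] [IsNoetherianRing S] [Algebra ℚ S]
    (q : Ideal S) [hq : q.IsPrime] (n : ℕ) (x : Fin 3 → S) (z : Fin n → S)
    (hx : ∀ i, x i ∈ q) (hz : ∀ i, z i ∈ q)
    (hN : ∀ p : Ideal S, p.IsPrime → (∀ i, x i ∈ p) → (∀ i, z i ∈ p) → p ≤ q → q ≤ p)
    (c : r1S → Fin 3 → S) (s : Fin 17 → S) (G : (r1S → Bool) → S) (hrel : Rel x c s G) :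
    DepthLt.{v} (Localization.AtPrime q) (maximalIdeal (Localization.AtPrime q)) (3 + n) := by
  let T : Type := Localization.AtPrime q
  have hNT : IsNoetherianRing T := IsLocalization.isNoetherianRing q.primeCompl _ inferInstance
  let g : S →+* T := algebraMap S T
  let _ : Algebra ℚ T := (g.comp (algebraMap ℚ S)).toAlgebra
  have hmax : q.map g = maximalIdeal T := IsLocalization.AtPrime.map_eq_maximalIdeal q T
  have hgm : ∀ y ∈ q, g y ∈ maximalIdeal T := fun y hy => by
    rw [← hmax]; exact Ideal.mem_map_of_mem _ hy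
  have hcm : Ideal.comap g (maximalIdeal T) = q := IsLocalization.AtPrime.under_maximalIdeal T q
  have hrad : maximalIdeal T ≤ (Ideal.span (Set.range fun i => g (x i)) ⊔
      Ideal.span (Set.range fun i => g (z i))).radical := by
    rw [Ideal.radical_eq_sInf]
    refine le_sInf fun P hP => ?_
    obtain ⟨hP1, hP2⟩ := hP
    have h2 : P.comap g ≤ q :=
      (Ideal.comap_mono (IsLocalRing.le_maximalIdeal hP2.ne_top)).trans hcm.le
    have h3 := hN (P.comap g) (Ideal.comap_isPrime g P)
      (fun i => hP1 (Ideal.mem_sup_left (Ideal.subset_span ⟨i, rfl⟩)))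
      (fun i => hP1 (Ideal.mem_sup_right (Ideal.subset_span ⟨i, rfl⟩))) h2
    rw [← hmax, Ideal.map_le_iff_le_comap]
    exact h3
  obtain ⟨N, hN2⟩ := Ideal.exists_pow_le_of_le_radical_of_fg hrad
    (maximalIdeal T).fg_of_isNoetherianRing
  intro M _ _ _ rs hrs hreg
  exact length_lt_local T n (fun i => g (x i)) (fun i => g (z i)) N
    (fun i => hgm _ (hx i)) (fun i => hgm _ (hz i)) hN2 _ _ _ (hrel.map g) M rs hrs hreg

theorem descend' {A B : Type} [CommRing A] [CommRing B] (κ : A →+* B)
    (hinj : Function.Injective κ) (I : Ideal A) (J : Ideal B) (hIJ : ∀ a ∈ I, κ a ∈ J)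
    (hI : ∀ a ∈ I, ∀ β : B, ∃ a' : A, κ a' = β * κ a) (d : ℕ) (hd : 2 ≤ d)
    (hB : DepthLt.{v} B J d) : DepthLt.{v} A I d := by
  let _ : Algebra A B := κ.toAlgebra
  intro M _ _ _ rs hrs hreg
  exact descend.{v} A B hinj I J hIJ hI d hd hB M rs hrs hreg

/-- descent for the local rings, along a subring that contains the maximal ideal -/
theorem descend_loc {A B : Type} [CommRing A] [CommRing B] [IsDomain B] (κ : A →+* B)
    (hinj : Function.Injective κ) (I : Ideal A) [I.IsPrime] (J : Ideal B) [hJ : J.IsMaximal]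
    (hIJ : I = J.comap κ) (hsub : ∀ j ∈ J, ∃ a, κ a = j) (d : ℕ) (hd : 2 ≤ d)
    (hB : DepthLt.{v} (Localization.AtPrime J) (maximalIdeal (Localization.AtPrime J)) d) :
    DepthLt.{v} (Localization.AtPrime I) (maximalIdeal (Localization.AtPrime I)) d := by
  have hmem : ∀ a, a ∈ I ↔ κ a ∈ J := fun a => by rw [hIJ]; rfl
  let κ' := Localization.localRingHom I J κ hIJ
  have hκ' : ∀ a, κ' (algebraMap A _ a) = algebraMap B _ (κ a) :=
    Localization.localRingHom_to_map I J κ hIJ
  have hBinj : Function.Injective (algebraMap B (Localization.AtPrime J)) :=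
    IsLocalization.injective _ J.primeCompl_le_nonZeroDivisors
  refine descend'.{v} κ' ?_ _ _ ?_ ?_ d hd hB
  · rw [injective_iff_map_eq_zero]
    intro a ha
    obtain ⟨a0, s, rfl⟩ := IsLocalization.exists_mk'_eq I.primeCompl a
    have h1 := congrArg κ' (IsLocalization.mk'_spec (Localization.AtPrime I) a0 s)
    rw [map_mul, ha, zero_mul, hκ'] at h1
    have h2 : a0 = 0 := hinj (hBinj (by rw [← h1, map_zero, map_zero]))
    rw [h2, IsLocalization.mk'_zero]
  · intro a ha
    rw [mem_maximalIdeal] at ha ⊢
    exact fun h => ha ((Localization.isLocalHom_localRingHom I J κ hIJ).map_nonunit a h)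
  · intro a ha β
    obtain ⟨a0, s, rfl⟩ := IsLocalization.exists_mk'_eq I.primeCompl a
    obtain ⟨b, t, rfl⟩ := IsLocalization.exists_mk'_eq J.primeCompl β
    have ha0 : a0 ∈ I := (IsLocalization.AtPrime.mk'_mem_maximal_iff _ I a0 s).1 ha
    obtain ⟨t', j, hj, htj⟩ := hJ.exists_inv t.2
    obtain ⟨a1, rfl⟩ := hsub j hj
    obtain ⟨a2, ha2⟩ := hsub (b * t' * κ a0) (Ideal.mul_mem_left _ _ ((hmem a0).1 ha0))
    have h1 : 1 - a1 ∈ I.primeCompl := by
      intro h
      have h2 := add_mem h ((hmem a1).2 hj)
      rw [sub_add_cancel] at h2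
      exact Ideal.IsPrime.ne_top' ((Ideal.eq_top_iff_one I).2 h2)
    let s' : I.primeCompl := s * ⟨1 - a1, h1⟩
    refine ⟨IsLocalization.mk' _ a2 s', ?_⟩
    have hu : IsUnit (κ' (algebraMap A _ (s' : A))) :=
      (IsLocalization.map_units (Localization.AtPrime I) s').map κ'
    apply hu.mul_right_cancel
    rw [← map_mul, IsLocalization.mk'_spec, hκ', ha2]
    have h3 : κ (1 - a1) = t' * t := by
      rw [map_sub, map_one, ← htj, add_sub_cancel_right]
    have h4 : κ' (algebraMap A _ (s' : A)) = κ' (algebraMap A _ (s : A)) *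
        (algebraMap B _ t' * algebraMap B _ (t : B)) := by
      change κ' (algebraMap A _ ((s : A) * (1 - a1))) = _
      rw [map_mul, map_mul, hκ' (1 - a1), h3, map_mul]
    have h5 := congrArg κ' (IsLocalization.mk'_spec (Localization.AtPrime I) a0 s)
    rw [map_mul, hκ' a0] at h5
    have h6 := IsLocalization.mk'_spec (Localization.AtPrime J) b t
    rw [h4, map_mul, map_mul, ← h5, ← h6]
    ring

end Vale.Agent.N190
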