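import Vale.Agent.N190.Params
import Vale.Agent.N190.Defs
import Mathlib.FieldTheory.IsAlgClosed.AlgebraicClosure

/-! Standard graded domains without maximal Cohen-Macaulay modules. -/

set_option autoImplicit false

namespace Vale.Agent.N190

open Vale.Agent.P190 Vale.Agent.P190.D IsLocalRing RingTheory.Sequence Vale.Agent.P190.H455
open Vale.Agent.P190.H128 MvPolynomial

universe v

/-- the equations in a field, with sixteenth roots -/
theorem exists_field (K : Type) [Field K] (m : ℕ) (Q : Ideal (MvPolynomial (Fin m) K))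
    [Q.IsPrime] (x : Fin 3 → MvPolynomial (Fin m) K) :
    ∃ (F : Type) (_ : Field F) (_ : Algebra K F) (y : Fin m → F),
      (∀ f : MvPolynomial (Fin m) K, aeval y f = 0 ↔ f ∈ Q) ∧
      ∃ (c : r1S → Fin 3 → F) (s : Fin 17 → F) (g : (r1S → Bool) → F),
        Rel (fun i => aeval y (x i)) c s (fun ε => g ε ^ 16) := by
  obtain ⟨T, t1, t2, t3, -, hinj, c, s, G, hrel⟩ :=
    exists_eval_cover (MvPolynomial (Fin m) K ⧸ Q) (fun i => Ideal.Quotient.mk Q (x i))
  let F : Type := AlgebraicClosure (FractionRing T)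
  let ι : T →+* F := (algebraMap (FractionRing T) F).comp (algebraMap T (FractionRing T))
  have hι : Function.Injective ι :=
    (algebraMap (FractionRing T) F).injective.comp (IsFractionRing.injective T (FractionRing T))
  let θ : MvPolynomial (Fin m) K →+* F :=
    ι.comp ((algebraMap (MvPolynomial (Fin m) K ⧸ Q) T).comp (Ideal.Quotient.mk Q))
  let _ : Algebra K F := (θ.comp C).toAlgebra
  have hθ : ∀ f, aeval (fun i => θ (X i)) f = θ f := by
    intro f
    induction f using MvPolynomial.induction_on with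
    | C a => rw [algHom_C]; rfl
    | add p q hp hq => rw [map_add, map_add, hp, hq]
    | mul_X p i hp => rw [map_mul, map_mul, hp, aeval_X]
  have hroot : ∀ z : F, ∃ y : F, y ^ 16 = z := fun z =>
    IsAlgClosed.exists_pow_nat_eq z (n := 16) (by norm_num)
  choose r hr using hroot
  refine ⟨F, inferInstance, inferInstance, fun i => θ (X i), fun f => ?_,
    fun t j => ι (c t j), fun a => ι (s a), fun ε => r (ι (G ε)), ?_⟩
  · rw [hθ, ← Ideal.Quotient.eq_zero_iff_mem]
    constructor
    · intro h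
      apply hinj
      apply hι
      rw [map_zero, map_zero]
      exact h
    · intro h
      change ι (algebraMap _ T (Ideal.Quotient.mk Q f)) = 0
      rw [h, map_zero, map_zero]
  · simp only [hθ, hr]
    exact hrel.map ι

theorem finite_aux {A S B : Type} [CommRing A] [IsNoetherianRing A] [CommRing S] [CommRing B]
    (ρ : A →+* S) (κ : S →+* B) (hκ : Function.Injective κ) (h : (κ.comp ρ).Finite)
    (Q : Ideal A) (hQ : ∀ a, ρ a = 0 ↔ a ∈ Q) :
    ρ.Finite ∧ ringKrullDim B = ringKrullDim S ∧ ringKrullDim S = ringKrullDim (A ⧸ Q) := by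
  let aAB : Algebra A B := (κ.comp ρ).toAlgebra
  let aAS : Algebra A S := ρ.toAlgebra
  let aSB : Algebra S B := κ.toAlgebra
  have tASB : IsScalarTower A S B := IsScalarTower.of_algebraMap_eq fun a => rfl
  have hfinAB : Module.Finite A B := h
  have hfinSB : Module.Finite S B := Module.Finite.of_restrictScalars_finite A S B
  have hfinAS : Module.Finite A S :=
    Module.Finite.of_injective (IsScalarTower.toAlgHom A S B).toLinearMap hκ
  refine ⟨hfinAS, dim_eq_of_finite S B hκ, ?_⟩
  have hker : ∀ a ∈ Q, ρ a = 0 := fun a ha => (hQ a).2 ha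
  let aQ : Algebra (A ⧸ Q) S := (Ideal.Quotient.lift Q ρ hker).toAlgebra
  have t1 : IsScalarTower A (A ⧸ Q) S := IsScalarTower.of_algebraMap_eq fun a => rfl
  have t2 : Module.Finite (A ⧸ Q) S := Module.Finite.of_restrictScalars_finite A (A ⧸ Q) S
  exact dim_eq_of_finite (A ⧸ Q) S
    (RingHom.lift_injective_of_ker_le_ideal Q hker fun a ha => (hQ a).1 ha)

theorem finite_of_gens {K L A B ι ι₁ : Type} [Field K] [Field L] [Algebra K L]
    [FiniteDimensional K L] [CommRing A] [Algebra K A] [CommRing B] [Algebra K B] [Algebra L B]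
    [IsScalarTower K L B] [Finite ι] (ψ : A →ₐ[K] B) (W : ι → B)
    (hsurj : Function.Surjective (aeval W : MvPolynomial ι L →ₐ[L] B))
    (x : Fin 3 → A) {c : r1S → Fin 3 → B} (i1 : ι₁ → ι) (i2 : Fin 17 → ι)
    (i3 : (r1S → Bool) → ι) (hall : ∀ i, (∃ j, i = i1 j) ∨ (∃ a, i = i2 a) ∨ ∃ ε, i = i3 ε)
    (h1 : ∀ j, ∃ a, ψ a = W (i1 j))
    (hrel : Rel (fun i => ψ (x i)) c (fun a => W (i2 a)) (fun ε => W (i3 ε) ^ 16)) :
    (ψ : A →+* B).Finite := by
  let aAB : Algebra A B := (ψ : A →+* B).toAlgebra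
  have tKAB : IsScalarTower K A B := IsScalarTower.of_algebraMap_eq fun a => (ψ.commutes a).symm
  have hint := rel_integral (A := A) hrel (fun i => isIntegral_algebraMap (A := B))
  have hWint : ∀ i, IsIntegral A (W i) := by
    intro i
    rcases hall i with ⟨j, rfl⟩ | ⟨a, rfl⟩ | ⟨ε, rfl⟩
    · obtain ⟨a, ha⟩ := h1 j
      rw [← ha]
      exact isIntegral_algebraMap (A := B)
    · exact hint.2.1 a
    · exact IsIntegral.of_pow (n := 16) (by norm_num) (hint.2.2 ε)
  have hBint : Algebra.IsIntegral A B := by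
    constructor
    intro β
    obtain ⟨f, rfl⟩ := hsurj β
    induction f using MvPolynomial.induction_on with
    | C l =>
      rw [algHom_C]
      exact ((IsIntegral.of_finite K l).map (IsScalarTower.toAlgHom K L B)).tower_top
    | add p q hp hq => rw [map_add]; exact hp.add hq
    | mul_X p i hp => rw [map_mul, aeval_X]; exact hp.mul (hWint i)
  have hftL : Algebra.FiniteType L B := Algebra.FiniteType.of_surjective _ hsurj
  have hftK : Algebra.FiniteType K B := Algebra.FiniteType.trans (S := L) inferInstance hftL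
  have hftA : Algebra.FiniteType A B := Algebra.FiniteType.of_restrictScalars_finiteType K A B
  exact (Algebra.IsIntegral.finite : Module.Finite A B)

section core

variable (K L F : Type) [Field K] [Field L] [Field F] [Algebra K L] [Algebra L F] [Algebra K F]
  [IsScalarTower K L F]

theorem conductor_aux {B ι : Type} [CommRing B] [Algebra L B] [Algebra K B] [IsScalarTower K L B]
    (W : ι → B) {r N : ℕ} (lam : Fin r → L) (hlam : Submodule.span K (Set.range lam) = ⊤)
    (Y : Fin N → B) (h1 : ∀ k i, ∃ j, Y j = algebraMap L B (lam k) * W i) (l : L) (i : ι) :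
    ∃ a' ∈ idealOfVars (Fin N) K, aeval Y a' = algebraMap L B l * W i := by
  have hl : l ∈ Submodule.span K (Set.range lam) := by rw [hlam]; exact Submodule.mem_top
  induction hl using Submodule.span_induction with
  | mem x hx =>
    obtain ⟨k, rfl⟩ := hx
    obtain ⟨j, hj⟩ := h1 k i
    exact ⟨X j, Ideal.subset_span ⟨j, rfl⟩, by rw [aeval_X, hj]⟩
  | zero => exact ⟨0, zero_mem _, by simp⟩
  | add a b _ _ ha hb =>
    obtain ⟨a', ha1, ha2⟩ := ha
    obtain ⟨b', hb1, hb2⟩ := hb
    exact ⟨a' + b', add_mem ha1 hb1, by rw [map_add, map_add, ha2, hb2, add_mul]⟩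
  | smul k a _ ha =>
    obtain ⟨a', ha1, ha2⟩ := ha
    refine ⟨C k * a', Ideal.mul_mem_left _ _ ha1, ?_⟩
    rw [map_mul, algHom_C, ha2, Algebra.smul_def, map_mul, ← IsScalarTower.algebraMap_apply,
      mul_assoc]

theorem conductor_lin {B ι : Type} [CommRing B] [Algebra L B] [Algebra K B] [IsScalarTower K L B]
    (W : ι → B) {r N : ℕ} (lam : Fin r → L) (hlam : Submodule.span K (Set.range lam) = ⊤)
    (Y : Fin N → B) (h1 : ∀ k i, ∃ j, Y j = algebraMap L B (lam k) * W i) (i : ι) :
    ∃ a' ∈ idealOfVars (Fin N) K, aeval Y a' = W i := by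
  have h := conductor_aux K L W lam hlam Y h1 1 i
  rwa [map_one, one_mul] at h

/-- the conductor -/
theorem conductor {B ι : Type} [CommRing B] [Algebra L B] [Algebra K B] [IsScalarTower K L B]
    (W : ι → B) {r N : ℕ} (lam : Fin r → L) (hlam : Submodule.span K (Set.range lam) = ⊤)
    (Y : Fin N → B) (h1 : ∀ k i, ∃ j, Y j = algebraMap L B (lam k) * W i)
    (h2 : ∀ j, ∃ (l : L) (i : ι), Y j = algebraMap L B l * W i) (f : MvPolynomial ι L) :
    ∀ a ∈ idealOfVars (Fin N) K, ∃ a' ∈ idealOfVars (Fin N) K,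
      aeval Y a' = aeval W f * aeval Y a := by
  have hlin := conductor_aux K L W lam hlam Y h1
  induction f using MvPolynomial.induction_on with
  | C l =>
    intro a ha
    rw [algHom_C]
    induction ha using Submodule.span_induction with
    | mem x hx =>
      obtain ⟨j, rfl⟩ := hx
      obtain ⟨l', i, hj⟩ := h2 j
      obtain ⟨a', ha1, ha2⟩ := hlin (l * l') i
      exact ⟨a', ha1, by rw [ha2, aeval_X, hj, map_mul, mul_assoc]⟩
    | zero => exact ⟨0, zero_mem _, by simp⟩
    | add a b _ _ ha hb =>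
      obtain ⟨a', ha1, ha2⟩ := ha
      obtain ⟨b', hb1, hb2⟩ := hb
      exact ⟨a' + b', add_mem ha1 hb1, by rw [map_add, map_add, ha2, hb2, mul_add]⟩
    | smul k a _ ha =>
      obtain ⟨a', ha1, ha2⟩ := ha
      refine ⟨k * a', Ideal.mul_mem_left _ _ ha1, ?_⟩
      rw [map_mul, ha2, smul_eq_mul, map_mul]
      ring
  | add p q hp hq =>
    intro a ha
    obtain ⟨a', ha1, ha2⟩ := hp a ha
    obtain ⟨b', hb1, hb2⟩ := hq a ha
    exact ⟨a' + b', add_mem ha1 hb1, by rw [map_add, map_add, ha2, hb2, add_mul]⟩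
  | mul_X p i hp =>
    intro a ha
    obtain ⟨b, -, hb⟩ := hlin 1 i
    obtain ⟨a', ha1, ha2⟩ := hp (b * a) (Ideal.mul_mem_left _ _ ha)
    refine ⟨a', ha1, ?_⟩
    rw [ha2, map_mul, map_mul, hb, map_one, one_mul, aeval_X, mul_assoc]

theorem core [CharZero K] [FiniteDimensional K L] (m : ℕ) (Q : Ideal (MvPolynomial (Fin m) K))
    (hQ : HomPrime Q) (e : ℕ)
    (hd : ringKrullDim (MvPolynomial (Fin m) K ⧸ Q) = (3 + e : ℕ))
    (u : Fin (3 + e) → MvPolynomial (Fin m) K)
    (hu : ∀ i, u i ∈ Submodule.span K (Set.range (X : Fin m → MvPolynomial (Fin m) K)))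
    (hu2 : ∀ p : Ideal (MvPolynomial (Fin m) K), p.IsPrime → Q ≤ p → (∀ i, u i ∈ p) →
      p ≤ idealOfVars (Fin m) K → p = idealOfVars (Fin m) K)
    (y : Fin m → F) (hy : ∀ f : MvPolynomial (Fin m) K, aeval y f = 0 ↔ f ∈ Q)
    (c : r1S → Fin 3 → L) (s : Fin 17 → F) (g : (r1S → Bool) → F)
    (hrel : Rel (fun i => aeval y (u (Fin.castAdd e i))) (fun t j => algebraMap L F (c t j)) s
      (fun ε => g ε ^ 16)) :
    ∃ (n : ℕ) (P : Ideal (MvPolynomial (Fin (m + n)) K)), HomPrime P ∧
      P.comap (rename (Fin.castAdd n)) = Q ∧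
      ((Ideal.Quotient.mkₐ K P).comp (rename (Fin.castAdd n))).Finite ∧
      NoCMAt.{v} (MvPolynomial (Fin (m + n)) K ⧸ P)
        ((idealOfVars (Fin (m + n)) K).map (Ideal.Quotient.mk P)) (3 + e) := by
  classical
  obtain ⟨ι, hι, w, i1, i2, i3, hw1, hw2, hw3, hall⟩ : ∃ (ι : Type) (_ : Finite ι) (w : ι → F)
      (i1 : Fin m → ι) (i2 : Fin 17 → ι) (i3 : (r1S → Bool) → ι), (∀ i, w (i1 i) = y i) ∧
      (∀ a, w (i2 a) = s a) ∧ (∀ ε, w (i3 ε) = g ε) ∧
      ∀ i, (∃ j, i = i1 j) ∨ (∃ a, i = i2 a) ∨ ∃ ε, i = i3 ε :=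
    ⟨Fin m ⊕ (Fin 17 ⊕ (r1S → Bool)), inferInstance, Sum.elim y (Sum.elim s g), Sum.inl,
      fun a => Sum.inr (Sum.inl a), fun ε => Sum.inr (Sum.inr ε), fun _ => rfl, fun _ => rfl,
      fun _ => rfl, by
        rintro (j | a | ε)
        · exact Or.inl ⟨j, rfl⟩
        · exact Or.inr (Or.inl ⟨a, rfl⟩)
        · exact Or.inr (Or.inr ⟨ε, rfl⟩)⟩
  -- the ring `B`
  obtain ⟨B, b1, b2, b3, b4, b5, W, val, hval, hvalL, hvalW, hsurj⟩ : ∃ (B : Type) (_ : CommRing B)
      (_ : IsDomain B) (_ : Algebra L B) (_ : Algebra K B) (_ : IsScalarTower K L B) (W : ι → B)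
      (val : B →ₐ[K] Polynomial F), Function.Injective val ∧
      (∀ l : L, val (algebraMap L B l) = Polynomial.C (algebraMap L F l)) ∧
      (∀ i, val (W i) = Polynomial.C (w i) * Polynomial.X) ∧
      Function.Surjective (aeval W : MvPolynomial ι L →ₐ[L] B) := by
    refine ⟨(cone L w).range, inferInstance, inferInstance, inferInstance, inferInstance,
      inferInstance, fun i => (cone L w).rangeRestrict (X i),
      (cone L w).range.val.restrictScalars K, Subtype.val_injective, fun l => rfl,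
      fun i => cone_X L w i, ?_⟩
    have h1 : (aeval fun i => (cone L w).rangeRestrict (X i)) = (cone L w).rangeRestrict :=
      MvPolynomial.algHom_ext fun i => aeval_X _ _
    rw [h1]
    exact (cone L w).rangeRestrict_surjective
  have hNB : IsNoetherianRing B :=
    isNoetherianRing_of_surjective (MvPolynomial ι L) B (aeval W : MvPolynomial ι L →ₐ[L] B)
      hsurj
  let π : MvPolynomial ι L →+* B := (aeval W : MvPolynomial ι L →ₐ[L] B)
  let q : Ideal B := (idealOfVars ι L).map π
  have hqspan : q = Ideal.span (Set.range W) := by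
    change Ideal.map π (Ideal.span (Set.range X)) = _
    rw [Ideal.map_span, ← Set.range_comp]
    congr 2
    funext i
    exact aeval_X W i
  have hWq : ∀ i, W i ∈ q := fun i => by rw [hqspan]; exact Ideal.subset_span ⟨i, rfl⟩
  have hq0 : ∀ β ∈ q, (val β).coeff 0 = 0 := by
    intro β hβ
    rw [hqspan] at hβ
    induction hβ using Submodule.span_induction with
    | mem x hx =>
      obtain ⟨i, rfl⟩ := hx
      rw [hvalW, Polynomial.coeff_mul_X_zero]
    | zero => simp
    | add a b _ _ ha hb => rw [map_add, Polynomial.coeff_add, ha, hb, add_zero]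
    | smul k a _ ha => rw [smul_eq_mul, map_mul, Polynomial.mul_coeff_zero, ha, mul_zero]
  have hq : q.IsMaximal := by
    refine (Ideal.map_eq_top_or_isMaximal_of_surjective π hsurj
      (idealOfVars_isMaximal ι L)).resolve_left fun h => ?_
    have h1 := hq0 1 (by change (1 : B) ∈ (idealOfVars ι L).map π; rw [h]; trivial)
    rw [map_one, Polynomial.coeff_one_zero] at h1
    exact one_ne_zero h1
  -- the generators
  obtain ⟨r, lam, hlam⟩ := Module.Finite.exists_fin (R := K) (M := L)
  obtain ⟨n, ⟨eqv⟩⟩ := Finite.exists_equiv_fin (Fin r × ι)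
  let Y : Fin (m + n) → B := Fin.append (fun i => W (i1 i))
    (fun j => algebraMap L B (lam (eqv.symm j).1) * W (eqv.symm j).2)
  let y' : Fin (m + n) → F := Fin.append y
    (fun j => algebraMap L F (lam (eqv.symm j).1) * w (eqv.symm j).2)
  have hY1 : ∀ i, Y (Fin.castAdd n i) = W (i1 i) := fun i => Fin.append_left _ _ _
  have hY2 : ∀ j, Y (Fin.natAdd m j) =
      algebraMap L B (lam (eqv.symm j).1) * W (eqv.symm j).2 := fun i => Fin.append_right _ _ _
  have hY3 : ∀ j, ∃ (l : L) (i : ι), Y j = algebraMap L B l * W i := by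
    intro j
    refine Fin.addCases (fun i => ?_) (fun i => ?_) j
    · exact ⟨1, i1 i, by rw [hY1, map_one, one_mul]⟩
    · exact ⟨_, _, hY2 i⟩
  have hY4 : ∀ k i, ∃ j, Y j = algebraMap L B (lam k) * W i := fun k i =>
    ⟨Fin.natAdd m (eqv (k, i)), by rw [hY2, Equiv.symm_apply_apply]⟩
  let φ : MvPolynomial (Fin (m + n)) K →ₐ[K] B := aeval Y
  have hφ : ∀ f, val (φ f) = cone K y' f := by
    have h1 : val.comp φ = cone K y' := by
      refine MvPolynomial.algHom_ext fun j => ?_
      rw [cone_X, AlgHom.comp_apply, aeval_X]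
      refine Fin.addCases (fun i => ?_) (fun i => ?_) j
      · rw [hY1, hvalW, hw1]
        congr 2
        exact (Fin.append_left _ _ _).symm
      · rw [hY2, map_mul, hvalW, hvalL, ← mul_assoc, ← map_mul]
        congr 2
        exact (Fin.append_right y
          (fun j => algebraMap L F (lam (eqv.symm j).1) * w (eqv.symm j).2) i).symm
    exact fun f => AlgHom.congr_fun h1 f
  let ψ : MvPolynomial (Fin m) K →ₐ[K] B := φ.comp (rename (Fin.castAdd n))
  have hψX : ∀ i, ψ (X i) = W (i1 i) := fun i => by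
    change φ (rename (Fin.castAdd n) (X i)) = _
    rw [rename_X, aeval_X, hY1]
  have hψ : ∀ f, val (ψ f) = cone K y f := by
    have h1 : val.comp ψ = cone K y := by
      refine MvPolynomial.algHom_ext fun j => ?_
      rw [cone_X, AlgHom.comp_apply, hψX, hvalW, hw1]
    exact fun f => AlgHom.congr_fun h1 f
  have hψ0 : ∀ f, ψ f = 0 ↔ f ∈ Q := by
    intro f
    constructor
    · intro h
      rw [← hy, ← eval_cone, ← hψ, h, map_zero, Polynomial.eval_zero]
    · intro h
      apply hval
      rw [hψ, map_zero]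
      ext k
      rw [(coeff_cone K y f k).1, Polynomial.coeff_zero, hy]
      exact hQ.2 f h k
  let P : Ideal (MvPolynomial (Fin (m + n)) K) := RingHom.ker φ
  have hP : ∀ f, f ∈ P ↔ φ f = 0 := fun f => RingHom.mem_ker
  have hPp : P.IsPrime := RingHom.ker_isPrime φ
  have hcomap : P.comap (rename (Fin.castAdd n)) = Q := by
    ext f
    rw [Ideal.mem_comap, hP, ← hψ0]
    rfl
  -- the equations in `B`
  have hux : ∀ i, val (ψ (u i)) = Polynomial.C (aeval y (u i)) * Polynomial.X := fun i => by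
    rw [hψ, cone_linear K y (hu i)]
  have hrelB : Rel (fun i => ψ (u (Fin.castAdd e i))) (fun t j => algebraMap L B (c t j))
      (fun a => W (i2 a)) (fun ε => W (i3 ε) ^ 16) := by
    refine rel_of_injective (val : B →+* Polynomial F) hval ?_
    have h1 := rel_scale (hrel.map (Polynomial.C : F →+* Polynomial F)) Polynomial.X
    simp only [RingHom.coe_coe, hux, hvalL, hvalW, map_pow, hw2, hw3, mul_pow] at h1 ⊢
    exact h1
  -- finiteness
  let ρ := (Ideal.Quotient.mkₐ K P).comp (rename (R := K) (Fin.castAdd n))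
  let κ := Ideal.kerLiftAlg φ
  have hκ : ∀ f, κ (Ideal.Quotient.mk P f) = φ f := fun f => Ideal.kerLiftAlg_mk φ f
  have hκinj : Function.Injective κ := Ideal.kerLiftAlg_injective φ
  have hfinAB := finite_of_gens ψ W hsurj (fun i => u (Fin.castAdd e i)) i1 i2 i3 hall
    (fun j => ⟨X j, hψX j⟩) hrelB
  obtain ⟨hfinAS, -, hdimS⟩ := finite_aux ρ.toRingHom κ.toRingHom hκinj (by
      have h1 : κ.toRingHom.comp ρ.toRingHom = (ψ : MvPolynomial (Fin m) K →+* B) :=
        RingHom.ext fun a => hκ _
      rw [h1]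
      exact hfinAB) Q (by
      intro a
      rw [← hcomap]
      exact Ideal.Quotient.eq_zero_iff_mem)
  rw [hd] at hdimS
  have hψq : ∀ a ∈ idealOfVars (Fin m) K, ψ a ∈ q := by
    intro a ha
    have h1 : idealOfVars (Fin m) K ≤ q.comap ψ := by
      rw [Ideal.span_le]
      rintro _ ⟨i, rfl⟩
      change ψ (X i) ∈ q
      rw [hψX]
      exact hWq _
    exact h1 ha
  have huq : ∀ i, ψ (u i) ∈ q := fun i => hψq _ (Submodule.span_le_restrictScalars K _ _ (hu i))
  let _ : Algebra ℚ B := ((algebraMap K B).comp (algebraMap ℚ K)).toAlgebra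
  have hB := depthLt_loc.{v} B q e (fun i => ψ (u (Fin.castAdd e i)))
    (fun i => ψ (u (Fin.natAdd 3 i))) (fun i => huq _) (fun i => huq _) (by
      intro p hp hx hz hpq
      have h1 := hu2 (p.comap ψ) (Ideal.comap_isPrime ψ p) (by
          intro f hf
          rw [Ideal.mem_comap, (hψ0 f).2 hf]
          exact zero_mem _) (by
          intro i
          refine Fin.addCases (fun i => ?_) (fun i => ?_) i
          · exact hx i
          · exact hz i) (by
          intro f hf
          have h2 := hq0 _ (hpq hf)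
          rw [hψ, (coeff_cone K y f 0).1, homogeneousComponent_zero, algHom_C,
            map_eq_zero] at h2
          have h3 := sub_C_mem f
          rwa [h2, map_zero, sub_zero] at h3)
      have h2 := rel_mem_prime hrelB p hp hx
      rw [hqspan, Ideal.span_le]
      rintro _ ⟨i, rfl⟩
      rcases hall i with ⟨j, rfl⟩ | ⟨a, rfl⟩ | ⟨ε, rfl⟩
      · have h3 : (X j : MvPolynomial (Fin m) K) ∈ p.comap ψ := by
          rw [h1]
          exact Ideal.subset_span ⟨j, rfl⟩
        rw [Ideal.mem_comap, hψX] at h3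
        exact h3
      · exact h2.1 a
      · exact hp.mem_of_pow_mem 16 (h2.2 ε)) _ _ _ hrelB
  have hφq : idealOfVars (Fin (m + n)) K ≤ q.comap φ := by
    rw [Ideal.span_le]
    rintro _ ⟨j, rfl⟩
    change φ (X j) ∈ q
    obtain ⟨l, i, h⟩ := hY3 j
    rw [aeval_X, h]
    exact Ideal.mul_mem_left _ _ (hWq i)
  have hIq : (idealOfVars (Fin (m + n)) K).map (Ideal.Quotient.mk P) ≤ q.comap κ.toRingHom := by
    rw [Ideal.map_le_iff_le_comap]
    intro a ha
    change κ (Ideal.Quotient.mk P a) ∈ q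
    rw [hκ]
    exact hφq ha
  have hqp : (q.comap κ.toRingHom).IsPrime := Ideal.comap_isPrime _ _
  have hImax : ((idealOfVars (Fin (m + n)) K).map (Ideal.Quotient.mk P)).IsMaximal :=
    (Ideal.map_eq_top_or_isMaximal_of_surjective _ Ideal.Quotient.mk_surjective
      (idealOfVars_isMaximal _ K)).resolve_left fun h => hqp.ne_top (top_le_iff.1 (h ▸ hIq))
  have hsub : ∀ j ∈ q, ∃ a ∈ idealOfVars (Fin (m + n)) K, φ a = j := by
    intro j hj
    rw [hqspan] at hj
    induction hj using Submodule.span_induction with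
    | mem x hx =>
      obtain ⟨i, rfl⟩ := hx
      exact conductor_lin K L W lam hlam Y hY4 i
    | zero => exact ⟨0, zero_mem _, map_zero _⟩
    | add a b _ _ ha hb =>
      obtain ⟨a', ha1, ha2⟩ := ha
      obtain ⟨b', hb1, hb2⟩ := hb
      exact ⟨a' + b', add_mem ha1 hb1, by rw [map_add, ha2, hb2]⟩
    | smul β a _ ha =>
      obtain ⟨a', ha1, rfl⟩ := ha
      obtain ⟨f, rfl⟩ := hsurj β
      exact conductor K L W lam hlam Y hY4 hY3 f a' ha1
  have hdom : IsDomain (MvPolynomial (Fin (m + n)) K ⧸ P) := Ideal.Quotient.isDomain P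
  have hloc := descend_loc.{v} κ.toRingHom hκinj
    ((idealOfVars (Fin (m + n)) K).map (Ideal.Quotient.mk P)) q
    (hImax.eq_of_le hqp.ne_top hIq) (fun j hj => by
      obtain ⟨a, -, ha⟩ := hsub j hj
      exact ⟨Ideal.Quotient.mk P a, (hκ a).trans ha⟩) (3 + e) (by omega) hB
  refine ⟨n, P, ⟨hPp, fun f hf k => ?_⟩, hcomap, hfinAS, hdimS,
    depthLt_of_local.{v} _ _ (3 + e) hdimS.le hloc, hImax.isPrime,
    dim_localization K _ _ (3 + e) hdimS, hloc⟩
  rw [hP] at hf ⊢
  apply hval
  rw [hφ, map_zero]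
  apply cone_homogeneous
  rw [← hφ, hf, map_zero]

end core

/-- Every standard graded domain of dimension at least three over a field of characteristic zero
has a module-finite standard graded extension domain without maximal Cohen-Macaulay modules. -/
theorem exists_graded_cover (K : Type) [Field K] [CharZero K] (m : ℕ)
    (Q : Ideal (MvPolynomial (Fin m) K)) (hQ : HomPrime Q) (d : ℕ) (h3 : 3 ≤ d)
    (hd : ringKrullDim (MvPolynomial (Fin m) K ⧸ Q) = d) :
    ∃ (n : ℕ) (P : Ideal (MvPolynomial (Fin (m + n)) K)), HomPrime P ∧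
      P.comap (rename (Fin.castAdd n)) = Q ∧
      ((Ideal.Quotient.mkₐ K P).comp (rename (Fin.castAdd n))).Finite ∧
      NoCMAt.{v} (MvPolynomial (Fin (m + n)) K ⧸ P)
        ((idealOfVars (Fin (m + n)) K).map (Ideal.Quotient.mk P)) d := by
  obtain ⟨e, rfl⟩ := Nat.exists_eq_add_of_le h3
  have hinf : Infinite K := inferInstance
  obtain ⟨u, hu, hu2⟩ := exists_linear_params K (MvPolynomial (Fin m) K)
    (Submodule.span K (Set.range X)) (idealOfVars (Fin m) K) (idealOfVars_isMaximal _ _)
    (Ideal.span_mono Submodule.subset_span) (3 + e) Q hd.le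
  have := hQ.1
  obtain ⟨F, f1, f2, y, hy, c, s, g, hrel⟩ := exists_field K m Q (fun i => u (Fin.castAdd e i))
  let cs : Set F := Set.range fun p : r1S × Fin 3 => c p.1 p.2
  have hcs : Finite cs := (Set.finite_range _).to_subtype
  let L : IntermediateField K F := IntermediateField.adjoin K cs
  have hL : FiniteDimensional K L := IntermediateField.finiteDimensional_adjoin (by
    rintro _ ⟨p, rfl⟩
    apply IsIntegral.of_pow (n := 2) (by norm_num)
    rw [hrel.c_sq, ← map_intCast (algebraMap K F)]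
    exact isIntegral_algebraMap)
  exact core.{v} K L F m Q hQ e hd u hu hu2 y hy
    (fun t j => ⟨c t j, IntermediateField.subset_adjoin K cs ⟨(t, j), rfl⟩⟩) s g hrel

end Vale.Agent.N190
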