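import Vale.Agent.N190.Desc
import Mathlib.Algebra.Module.Submodule.Union
import Mathlib.RingTheory.MvPolynomial.Ideal
import Mathlib.RingTheory.MvPolynomial.Homogeneous
import Mathlib.RingTheory.KrullDimension.Polynomial
import Mathlib.RingTheory.Jacobson.Ring
import Mathlib.RingTheory.NoetherNormalization
import Mathlib.RingTheory.IntegralClosure.GoingDown

/-! Linear systems of parameters, cones, and scaling of the equations. -/

set_option autoImplicit false

namespace Vale.Agent.N190

open Vale.Agent.P190 Vale.Agent.P190.D IsLocalRing RingTheory.Sequence Vale.Agent.P190.H455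
open Vale.Agent.P190.H128
open scoped Pointwise

universe v

theorem dim_drop {A : Type} [CommRing A] (I : Ideal A) (x : A)
    (hx : ∀ p ∈ I.minimalPrimes, x ∉ p) :
    ringKrullDim (A ⧸ (I ⊔ Ideal.span {x})) + 1 ≤ ringKrullDim (A ⧸ I) := by
  have h1 := Module.supportDim_quotSMulTop_succ_le_of_notMem_minimalPrimes (M := A ⧸ I) (x := x)
    (by rwa [Ideal.annihilator_quotient])
  rw [Module.supportDim_quotient_eq_ringKrullDim] at h1
  refine le_trans (le_of_eq ?_) h1
  congr 1
  rw [ringKrullDim_quotient, Module.supportDim, Module.support_quotSMulTop,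
    Module.support_eq_zeroLocus, Ideal.annihilator_quotient, PrimeSpectrum.zeroLocus_sup,
    PrimeSpectrum.zeroLocus_span]

/-- Over an infinite field, parameters can be chosen in a subspace generating the maximal
ideal. -/
theorem exists_linear_params (K A : Type) [Field K] [Infinite K] [CommRing A] [IsNoetherianRing A]
    [Algebra K A] (V : Submodule K A) (m : Ideal A) (hm : m.IsMaximal)
    (hV : m ≤ Ideal.span (V : Set A)) (k : ℕ) :
    ∀ I : Ideal A, ringKrullDim (A ⧸ I) ≤ k → ∃ u : Fin k → A, (∀ i, u i ∈ V) ∧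
      ∀ p : Ideal A, p.IsPrime → I ≤ p → (∀ i, u i ∈ p) → p ≤ m → p = m := by
  induction k with
  | zero =>
    intro I hI
    refine ⟨Fin.elim0, fun i => i.elim0, fun p hp hIp _ hpm => ?_⟩
    have h0 : Ring.KrullDimLE 0 (A ⧸ I) := Ring.krullDimLE_iff.2 (by exact_mod_cast hI)
    have hpp : (p.map (Ideal.Quotient.mk I)).IsPrime :=
      Ideal.map_isPrime_of_surjective Ideal.Quotient.mk_surjective (by rwa [Ideal.mk_ker])
    have hmax : (p.map (Ideal.Quotient.mk I)).IsMaximal := Ring.krullDimLE_zero_iff.1 h0 _ hpp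
    have h2 := Ideal.comap_isMaximal_of_surjective (Ideal.Quotient.mk I)
      Ideal.Quotient.mk_surjective (K := p.map (Ideal.Quotient.mk I))
    rw [Ideal.comap_map_of_surjective' _ Ideal.Quotient.mk_surjective, Ideal.mk_ker,
      sup_eq_left.2 hIp] at h2
    exact h2.eq_of_le hm.ne_top hpm
  | succ k ih =>
    intro I hI
    by_cases hmin : m ∈ I.minimalPrimes
    · refine ⟨fun _ => 0, fun _ => zero_mem _, fun p hp hIp _ hpm => ?_⟩
      exact le_antisymm hpm (hmin.2 ⟨hp, hIp⟩ hpm)
    · have hfin : Finite I.minimalPrimes := (I.finite_minimalPrimes_of_isNoetherianRing A).to_subtype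
      obtain ⟨x, hx⟩ := Submodule.exists_forall_notMem_of_forall_ne_top (K := K) (M := V)
        (fun p : I.minimalPrimes => (p.1.restrictScalars K).comap V.subtype) (by
          intro p hp
          apply hmin
          have h1 : Ideal.span (V : Set A) ≤ p.1 := by
            rw [Ideal.span_le]
            intro y hy
            have h2 : (⟨y, hy⟩ : V) ∈ (p.1.restrictScalars K).comap V.subtype := by
              rw [hp]; exact Submodule.mem_top
            exact h2
          have h3 : m = p.1 := hm.eq_of_le p.2.1.1.ne_top (hV.trans h1)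
          rw [h3]
          exact p.2)
      have h1 := (dim_drop I x.1 (fun p hp h => hx ⟨p, hp⟩ h)).trans hI
      have h2 : ringKrullDim (A ⧸ (I ⊔ Ideal.span {x.1})) ≤ k := by
        rw [Nat.cast_succ] at h1
        exact (ENat.WithBot.add_le_add_one_right_iff.1 h1)
      obtain ⟨u, hu, hu2⟩ := ih _ h2
      refine ⟨Fin.cons x.1 u, fun i => ?_, fun p hp hIp hup hpm => ?_⟩
      · refine Fin.cases ?_ (fun i => ?_) i
        · exact x.2
        · exact hu i
      · refine hu2 p hp (sup_le hIp ?_) (fun i => hup i.succ) hpm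
        rw [Ideal.span_singleton_le_iff_mem]
        exact hup 0

theorem sub_C_mem {σ R : Type} [CommRing R] (f : MvPolynomial σ R) :
    f - MvPolynomial.C (f.coeff 0) ∈ MvPolynomial.idealOfVars σ R := by
  classical
  rw [← pow_one (MvPolynomial.idealOfVars σ R), MvPolynomial.mem_pow_idealOfVars_iff']
  intro x hx
  have h0 : x = 0 := (Finsupp.degree_eq_zero_iff x).1 (by omega)
  subst h0
  simp

theorem coeff_zero_of_mem {σ R : Type} [CommRing R] {f : MvPolynomial σ R}
    (hf : f ∈ MvPolynomial.idealOfVars σ R) : f.coeff 0 = 0 := by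
  rw [← pow_one (MvPolynomial.idealOfVars σ R), MvPolynomial.mem_pow_idealOfVars_iff'] at hf
  exact hf 0 (by simp)

theorem idealOfVars_isMaximal (σ K : Type) [Field K] :
    (MvPolynomial.idealOfVars σ K).IsMaximal := by
  have h : MvPolynomial.idealOfVars σ K =
      RingHom.ker (MvPolynomial.constantCoeff : MvPolynomial σ K →+* K) := by
    ext f
    rw [RingHom.mem_ker, MvPolynomial.constantCoeff_eq]
    refine ⟨coeff_zero_of_mem, fun h => ?_⟩
    have h1 := sub_C_mem f
    rwa [h, map_zero, sub_zero] at h1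
  rw [h]
  exact RingHom.ker_isMaximal_of_surjective _ fun a => ⟨MvPolynomial.C a, by simp⟩

theorem height_polynomial (R : Type) [CommRing R] [IsNoetherianRing R] [IsJacobsonRing R]
    (P : Ideal (Polynomial R)) (hP : P.IsMaximal) :
    ∃ p : Ideal R, p.IsMaximal ∧ P.height = p.height + 1 :=
  ⟨P.under R, Polynomial.isMaximal_comap_C_of_isJacobsonRing P,
    Polynomial.height_eq_height_add_one (P.under R) P⟩

theorem height_mvPolynomial (K : Type) [Field K] (s : ℕ) :
    ∀ P : Ideal (MvPolynomial (Fin s) K), P.IsMaximal → (s : ℕ∞) ≤ P.height := by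
  induction s with
  | zero => intro P _; simp
  | succ s ih =>
    intro P hP
    let e := (MvPolynomial.finSuccEquiv K s).toRingEquiv
    have h1 : (P.map e).IsMaximal := Ideal.map_isMaximal_of_equiv e
    obtain ⟨p, h2, h3⟩ := height_polynomial _ (P.map e) h1
    rw [← e.height_map P, h3, Nat.cast_succ]
    gcongr
    exact ih _ h2

/-- maximal ideals of affine domains have full height -/
theorem dim_localization (K S : Type) [Field K] [CommRing S] [IsDomain S] [Algebra K S]
    [Algebra.FiniteType K S] (q : Ideal S) [hq : q.IsMaximal] (d : ℕ)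
    (hd : ringKrullDim S = d) : ringKrullDim (Localization.AtPrime q) = d := by
  have hN : IsNoetherianRing S := Algebra.FiniteType.isNoetherianRing K S
  obtain ⟨s, g, hinj, hfin⟩ := exists_finite_inj_algHom_of_fg K S
  let _ : Algebra (MvPolynomial (Fin s) K) S := g.toRingHom.toAlgebra
  have hf : Module.Finite (MvPolynomial (Fin s) K) S := hfin
  have hint : Algebra.IsIntegral (MvPolynomial (Fin s) K) S := Algebra.IsIntegral.of_finite _ _
  have hfs : FaithfulSMul (MvPolynomial (Fin s) K) S :=
    (faithfulSMul_iff_algebraMap_injective _ _).2 hinj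
  have h1 := dim_eq_of_finite (MvPolynomial (Fin s) K) S hinj
  rw [hd, MvPolynomial.ringKrullDim_of_isNoetherianRing, ringKrullDim_eq_zero_of_field, zero_add,
    Nat.card_eq_fintype_card, Fintype.card_fin] at h1
  have h2 : d = s := by exact_mod_cast h1
  subst h2
  have h3 : (q.under (MvPolynomial (Fin d) K)).IsMaximal :=
    Ideal.isMaximal_comap_of_isIntegral_of_isMaximal q
  have h4 := Ideal.height_eq_height_add_of_liesOver_of_hasGoingDown
    (q.under (MvPolynomial (Fin d) K)) q
  have h5 : (d : ℕ∞) ≤ q.height := by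
    rw [h4]
    exact (height_mvPolynomial K d _ h3).trans le_self_add
  rw [IsLocalization.AtPrime.ringKrullDim_eq_height q]
  refine le_antisymm ?_ (by exact_mod_cast h5)
  rw [← hd]
  exact Ideal.height_le_ringKrullDim_of_ne_top hq.ne_top

/-- the cone: `yᵢ ↦ yᵢ t` -/
noncomputable def cone (K : Type) {F σ : Type} [Field K] [Field F] [Algebra K F] (y : σ → F) :
    MvPolynomial σ K →ₐ[K] Polynomial F :=
  MvPolynomial.aeval fun j => Polynomial.C (y j) * Polynomial.X

theorem cone_X (K : Type) {F σ : Type} [Field K] [Field F] [Algebra K F] (y : σ → F) (j : σ) :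
    cone K y (MvPolynomial.X j) = Polynomial.C (y j) * Polynomial.X :=
  MvPolynomial.aeval_X _ _

theorem cone_monomial (K : Type) {F σ : Type} [Field K] [Field F] [Algebra K F] (y : σ → F)
    (d : σ →₀ ℕ) (a : K) : cone K y (MvPolynomial.monomial d a) =
      Polynomial.C (MvPolynomial.aeval y (MvPolynomial.monomial d a)) *
        Polynomial.X ^ d.degree := by
  rw [cone, MvPolynomial.aeval_monomial, MvPolynomial.aeval_monomial, map_mul,
    Polynomial.algebraMap_apply, mul_assoc]
  congr 1
  rw [Finsupp.prod, Finsupp.prod, map_prod, Finsupp.degree_apply, ← Finset.prod_pow_eq_pow_sum,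
    ← Finset.prod_mul_distrib]
  exact Finset.prod_congr rfl fun i _ => by rw [mul_pow, map_pow]

theorem coeff_cone (K : Type) {F σ : Type} [Field K] [Field F] [Algebra K F] (y : σ → F)
    (f : MvPolynomial σ K) (k : ℕ) :
    (cone K y f).coeff k = MvPolynomial.aeval y (MvPolynomial.homogeneousComponent k f) ∧
    cone K y (MvPolynomial.homogeneousComponent k f) =
      Polynomial.C ((cone K y f).coeff k) * Polynomial.X ^ k := by
  induction f using MvPolynomial.induction_on' with
  | monomial d a =>
    rw [MvPolynomial.homogeneousComponent_of_mem (MvPolynomial.isHomogeneous_monomial a rfl),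
      cone_monomial, Polynomial.coeff_C_mul_X_pow]
    split_ifs with h
    · subst h
      exact ⟨rfl, cone_monomial K y d a⟩
    · simp
  | add p q hp hq =>
    rw [map_add, map_add, map_add, map_add, Polynomial.coeff_add, map_add, add_mul, hp.2, hq.2,
      hp.1, hq.1]
    exact ⟨rfl, rfl⟩

theorem cone_homogeneous (K : Type) {F σ : Type} [Field K] [Field F] [Algebra K F] (y : σ → F)
    {f : MvPolynomial σ K} (hf : cone K y f = 0) (k : ℕ) :
    cone K y (MvPolynomial.homogeneousComponent k f) = 0 := by
  rw [(coeff_cone K y f k).2, hf, Polynomial.coeff_zero, map_zero, zero_mul]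

theorem eval_cone (K : Type) {F σ : Type} [Field K] [Field F] [Algebra K F] (y : σ → F)
    (f : MvPolynomial σ K) : (cone K y f).eval 1 = MvPolynomial.aeval y f := by
  induction f using MvPolynomial.induction_on' with
  | monomial d a =>
    rw [cone_monomial, Polynomial.eval_mul, Polynomial.eval_C, Polynomial.eval_pow,
      Polynomial.eval_X, one_pow, mul_one]
  | add p q hp hq => rw [map_add, map_add, Polynomial.eval_add, hp, hq]

theorem cone_linear (K : Type) {F σ : Type} [Field K] [Field F] [Algebra K F] (y : σ → F)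
    {u : MvPolynomial σ K} (hu : u ∈ Submodule.span K (Set.range MvPolynomial.X)) :
    cone K y u = Polynomial.C (MvPolynomial.aeval y u) * Polynomial.X := by
  induction hu using Submodule.span_induction with
  | mem x hx =>
    obtain ⟨j, rfl⟩ := hx
    rw [cone_X, MvPolynomial.aeval_X]
  | zero => simp
  | add a b _ _ ha hb => rw [map_add, map_add, map_add, add_mul, ha, hb]
  | smul a x _ hx =>
    rw [map_smul, map_smul, hx, Algebra.smul_def, Algebra.smul_def, map_mul,
      Polynomial.algebraMap_apply, mul_assoc]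

/-- the equations are homogeneous -/
theorem rel_scale {T : Type} [CommRing T] {x : Fin 3 → T} {c : r1S → Fin 3 → T}
    {s : Fin 17 → T} {G : (r1S → Bool) → T} (h : Rel x c s G) (t : T) :
    Rel (fun i => x i * t) c (fun a => s a * t) (fun ε => G ε * t ^ 16) where
  s_b := fun i => by rw [h.s_b]
  c_sq := h.c_sq
  s_sq := fun a => by
    rw [mul_pow, h.s_sq, Finset.sum_mul]
    exact Finset.sum_congr rfl fun i _ => by ring
  pi_G := fun ε ε' => by
    have key : ∀ ε : r1S → Bool, (∏ τ, if ε τ then c τ 0 * (s τ.1.1 * t) + c τ 1 * (s τ.1.2 * t)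
        else c τ 2 * (s (r1v τ) * t)) =
        (∏ τ, if ε τ then c τ 0 * s τ.1.1 + c τ 1 * s τ.1.2 else c τ 2 * s (r1v τ)) *
          ∏ _τ : r1S, t := by
      intro ε
      rw [← Finset.prod_mul_distrib]
      refine Finset.prod_congr rfl fun τ _ => ?_
      split_ifs <;> ring
    rw [key, key]
    linear_combination (∏ _τ : r1S, t) * t ^ 16 * h.pi_G ε ε'
  G_G := fun ε ε' => by
    have key : (∏ τ, if ε τ = ε' τ then
        (if ε τ then c τ 0 * (s τ.1.1 * t) + c τ 1 * (s τ.1.2 * t)
          else c τ 0 * (s τ.1.1 * t) - c τ 1 * (s τ.1.2 * t))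
        else c τ 2 * (s (r1v τ) * t)) =
        (∏ τ, if ε τ = ε' τ then
          (if ε τ then c τ 0 * s τ.1.1 + c τ 1 * s τ.1.2 else c τ 0 * s τ.1.1 - c τ 1 * s τ.1.2)
          else c τ 2 * s (r1v τ)) * ∏ _τ : r1S, t := by
      rw [← Finset.prod_mul_distrib]
      refine Finset.prod_congr rfl fun τ _ => ?_
      split_ifs <;> ring
    rw [key, ← h.G_G, Finset.prod_const, Finset.card_univ, r1_card]
    ring

theorem rel_of_injective {T T' : Type} [CommRing T] [CommRing T'] (f : T →+* T')
    (hf : Function.Injective f) {x : Fin 3 → T} {c : r1S → Fin 3 → T}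
    {s : Fin 17 → T} {G : (r1S → Bool) → T}
    (h : Rel (fun i => f (x i)) (fun t j => f (c t j)) (fun a => f (s a)) (fun ε => f (G ε))) :
    Rel x c s G where
  s_b := fun i => hf (h.s_b i)
  c_sq := fun t j => hf (by rw [map_pow, map_intCast]; exact h.c_sq t j)
  s_sq := fun a => hf (by
    rw [map_pow, map_sum]
    simp only [map_mul, map_intCast, map_pow]
    exact h.s_sq a)
  pi_G := fun ε ε' => hf (by
    simp only [map_mul, map_prod, apply_ite f, map_add]
    exact h.pi_G ε ε')
  G_G := fun ε ε' => hf (by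
    simp only [map_mul, map_prod, apply_ite f, map_add, map_sub]
    exact h.G_G ε ε')

/-- a prime containing the `x i` contains the `s a` and the `G ε` -/
theorem rel_mem_prime {T : Type} [CommRing T] {x : Fin 3 → T} {c : r1S → Fin 3 → T}
    {s : Fin 17 → T} {G : (r1S → Bool) → T} (h : Rel x c s G) (p : Ideal T) (hp : p.IsPrime)
    (hx : ∀ i, x i ∈ p) : (∀ a, s a ∈ p) ∧ ∀ ε, G ε ∈ p := by
  have hs : ∀ a, s a ∈ p := by
    intro a
    refine hp.mem_of_pow_mem 2 ?_
    rw [h.s_sq]
    exact Ideal.sum_mem _ fun i _ => Ideal.mul_mem_left _ _ (Ideal.pow_mem_of_mem _ (hx i) 2 two_pos)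
  refine ⟨hs, fun ε => hp.mem_of_pow_mem 2 ?_⟩
  rw [sq, h.G_G]
  have hne : Nonempty r1S := Fintype.card_pos_iff.1 (by rw [r1_card]; norm_num)
  obtain ⟨τ⟩ := hne
  refine Ideal.prod_mem p (Finset.mem_univ τ) ?_
  rw [if_pos rfl]
  split_ifs
  · exact add_mem (Ideal.mul_mem_left _ _ (hs _)) (Ideal.mul_mem_left _ _ (hs _))
  · exact sub_mem (Ideal.mul_mem_left _ _ (hs _)) (Ideal.mul_mem_left _ _ (hs _))

/-- the `c`, `s`, `G` are integral -/
theorem rel_integral {A T : Type} [CommRing A] [CommRing T] [Algebra A T] {x : Fin 3 → T}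
    {c : r1S → Fin 3 → T} {s : Fin 17 → T} {G : (r1S → Bool) → T} (h : Rel x c s G)
    (hx : ∀ i, IsIntegral A (x i)) :
    (∀ t j, IsIntegral A (c t j)) ∧ (∀ a, IsIntegral A (s a)) ∧ ∀ ε, IsIntegral A (G ε) := by
  have hicz : ∀ n : ℤ, IsIntegral A ((n : ℤ) : T) := fun n => by
    rw [← map_intCast (algebraMap A T) n]
    exact isIntegral_algebraMap
  have hic : ∀ t j, IsIntegral A (c t j) := by
    intro t j
    apply IsIntegral.of_pow (n := 2) (by norm_num)
    rw [h.c_sq]
    exact hicz _
  have his : ∀ a, IsIntegral A (s a) := by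
    intro a
    apply IsIntegral.of_pow (n := 2) (by norm_num)
    rw [h.s_sq]
    exact IsIntegral.sum _ fun i _ => (hicz _).mul ((hx i).pow _)
  refine ⟨hic, his, fun ε => ?_⟩
  apply IsIntegral.of_pow (n := 2) (by norm_num)
  rw [sq, h.G_G]
  refine IsIntegral.prod _ fun t _ => ?_
  rw [if_pos rfl]
  split_ifs
  · exact ((hic _ _).mul (his _)).add ((hic _ _).mul (his _))
  · exact ((hic _ _).mul (his _)).sub ((hic _ _).mul (his _))

end Vale.Agent.N190
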