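import Vale.Agent.N190.Graded
import Mathlib.RingTheory.KrullDimension.Polynomial

/-! Counterexamples with a prescribed residue field; graded counterexamples in every dimension. -/

set_option autoImplicit false

namespace Vale.Agent.N190

open Vale.Agent.P190 Vale.Agent.P190.D IsLocalRing RingTheory.Sequence Vale.Agent.P190.H455
open Vale.Agent.P190.H128 MvPolynomial

universe v

/-- the counterexample can be chosen without residue field extension -/
theorem exists_same_residue (B : Type) [CommRing B] [IsDomain B] [IsLocalRing B]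
    [IsNoetherianRing B] [CharZero B] (hB : IsAdicComplete (maximalIdeal B) B) (d : ℕ)
    (hd : ringKrullDim B = d) (h : 4 ≤ d ∨ 3 ≤ d ∧ CharZero (ResidueField B)) :
    ∃ (R : Type) (_ : CommRing R) (_ : IsDomain R) (_ : IsLocalRing R) (_ : Algebra B R),
      Module.Finite B R ∧ Function.Injective (algebraMap B R) ∧ IsNoetherianRing R ∧
      IsAdicComplete (maximalIdeal R) R ∧ ringKrullDim R = d ∧
      Function.Surjective ((residue R).comp (algebraMap B R)) ∧
      DepthLt.{v} R (maximalIdeal R) d := by
  obtain ⟨T, t1, t2, t3, hfin, hinj, hT⟩ := main_all.{v} B hB d hd h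
  have := hT.isDomain
  let R : Subalgebra B T :=
    { carrier := {r | ∃ b : B, r - algebraMap B T b ∈ maximalIdeal T}
      mul_mem' := by
        rintro r r' ⟨b, hb⟩ ⟨b', hb'⟩
        refine ⟨b * b', ?_⟩
        have h1 : r * r' - algebraMap B T (b * b') =
            r' * (r - algebraMap B T b) + algebraMap B T b * (r' - algebraMap B T b') := by
          rw [map_mul]; ring
        rw [h1]
        exact add_mem (Ideal.mul_mem_left _ _ hb) (Ideal.mul_mem_left _ _ hb')
      add_mem' := by
        rintro r r' ⟨b, hb⟩ ⟨b', hb'⟩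
        refine ⟨b + b', ?_⟩
        have h1 : r + r' - algebraMap B T (b + b') =
            (r - algebraMap B T b) + (r' - algebraMap B T b') := by
          rw [map_add]; ring
        rw [h1]
        exact add_mem hb hb'
      algebraMap_mem' := fun b => ⟨b, by rw [sub_self]; exact zero_mem _⟩ }
  have hfinR : Module.Finite B R := Module.Finite.of_injective R.val.toLinearMap Subtype.val_injective
  have hloc : IsLocalRing R := n2_isLocalRing (B := B) hB
  have hinjR : Function.Injective (algebraMap B R) := fun a b hab =>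
    hinj (congrArg Subtype.val hab)
  have hfinT : Module.Finite R T := Module.Finite.of_restrictScalars_finite B R T
  have hint : Algebra.IsIntegral R T := Algebra.IsIntegral.of_finite R T
  have hmax : (maximalIdeal T).comap (algebraMap R T) = maximalIdeal R :=
    IsLocalRing.eq_maximalIdeal (Ideal.isMaximal_comap_of_isIntegral_of_isMaximal _)
  have hm : ∀ r : R, r ∈ maximalIdeal R ↔ (r : T) ∈ maximalIdeal T := fun r => by
    rw [← hmax]; rfl
  refine ⟨R, inferInstance, inferInstance, hloc, inferInstance, hfinR, hinjR,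
    IsNoetherianRing.of_finite B R, isAdicComplete_of_finite_local (A := B) hB,
    (dim_eq_of_finite B R hinjR).trans hd, ?_, ?_⟩
  · intro z
    obtain ⟨r, rfl⟩ := residue_surjective z
    obtain ⟨b, hb⟩ := r.2
    refine ⟨b, ?_⟩
    rw [RingHom.comp_apply, eq_comm, ← sub_eq_zero, ← map_sub, residue_eq_zero_iff, hm]
    exact hb
  · refine descend'.{v} (algebraMap R T) Subtype.val_injective _ (maximalIdeal T)
      (fun a ha => (hm a).1 ha) (fun a ha β => ?_) d (by omega) hT.depth_lt
    refine ⟨⟨β * a, 0, ?_⟩, rfl⟩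
    rw [map_zero, sub_zero]
    exact Ideal.mul_mem_left _ _ ((hm a).1 ha)

/-- power series over a field of characteristic zero -/
theorem exists_residue_field (K : Type) [Field K] [CharZero K] (d : ℕ) (h3 : 3 ≤ d) :
    ∃ (R : Type) (_ : CommRing R) (_ : IsDomain R) (_ : IsLocalRing R),
      IsNoetherianRing R ∧ IsAdicComplete (maximalIdeal R) R ∧ ringKrullDim R = d ∧
      Nonempty (ResidueField R ≃+* K) ∧ DepthLt.{v} R (maximalIdeal R) d := by
  have hg := (goodBase_field K).mvPowerSeries d
  have h1 := hg.dom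
  have h2 := hg.noeth
  obtain ⟨xs, hxs, hpar⟩ := hg.par
  have hdim : ringKrullDim (MvPowerSeries (Fin d) K) = d := by
    rw [n1_ringKrullDim_B hpar, hxs, Nat.zero_add]
  have hcz : CharZero (MvPowerSeries (Fin d) K) :=
    charZero_of_injective_algebraMap (R := K) (algebraMap K _).injective
  have hcz2 : CharZero (ResidueField (MvPowerSeries (Fin d) K)) :=
    charZero_of_injective_ringHom
      ((residue (MvPowerSeries (Fin d) K)).comp (MvPowerSeries.C (σ := Fin d) (R := K))).injective
  obtain ⟨R, r1, r2, r3, r4, hfin, hinj, hN, hc, hd, hs, hD⟩ :=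
    exists_same_residue.{v} (MvPowerSeries (Fin d) K) hg.complete d hdim (Or.inr ⟨h3, hcz2⟩)
  refine ⟨R, r1, r2, r3, hN, hc, hd, ?_, hD⟩
  let f : K →+* ResidueField R := ((residue R).comp (algebraMap (MvPowerSeries (Fin d) K) R)).comp
    (MvPowerSeries.C (σ := Fin d) (R := K))
  refine ⟨(RingEquiv.ofBijective f ⟨f.injective, fun z => ?_⟩).symm⟩
  obtain ⟨b, rfl⟩ := hs z
  refine ⟨MvPowerSeries.constantCoeff b, ?_⟩
  have hint : Algebra.IsIntegral (MvPowerSeries (Fin d) K) R := Algebra.IsIntegral.of_finite _ _
  have hmax : (maximalIdeal R).comap (algebraMap (MvPowerSeries (Fin d) K) R) =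
      maximalIdeal (MvPowerSeries (Fin d) K) :=
    IsLocalRing.eq_maximalIdeal (Ideal.isMaximal_comap_of_isIntegral_of_isMaximal _)
  have h4 : MvPowerSeries.C (MvPowerSeries.constantCoeff b) - b ∈
      maximalIdeal (MvPowerSeries (Fin d) K) := by
    rw [IsLocalRing.mem_maximalIdeal, mem_nonunits_iff, MvPowerSeries.isUnit_iff_constantCoeff,
      map_sub, MvPowerSeries.constantCoeff_C, sub_self]
    exact not_isUnit_zero
  rw [← hmax, Ideal.mem_comap, ← residue_eq_zero_iff, map_sub, map_sub, sub_eq_zero] at h4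
  exact h4

theorem exists_graded (K : Type) [Field K] [CharZero K] (d : ℕ) (h3 : 3 ≤ d) :
    ∃ (n : ℕ) (P : Ideal (MvPolynomial (Fin n) K)), HomPrime P ∧
      NoCMAt.{v} (MvPolynomial (Fin n) K ⧸ P)
        ((idealOfVars (Fin n) K).map (Ideal.Quotient.mk P)) d := by
  obtain ⟨n, P, h1, -, -, h2⟩ := exists_graded_cover.{v} K d ⊥
    ⟨Ideal.isPrime_bot, fun f hf k => by
      rw [Ideal.mem_bot] at hf ⊢
      rw [hf, map_zero]⟩ d h3 (by
      rw [ringKrullDim_eq_of_ringEquiv (RingEquiv.quotientBot _),
        MvPolynomial.ringKrullDim_of_isNoetherianRing, ringKrullDim_eq_zero_of_field]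
      simp)
  exact ⟨d + n, P, h1, h2⟩

end Vale.Agent.N190
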